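import Vale.Agent.P245W48.Main

/-!
# P245: the log-Sobolev constant of subgaussian log-concave measures
-/

namespace Vale.Agent.Results.P245.ALiteral

open Vale.Agent.P245W MeasureTheory
open scoped ENNReal ContDiff

/-- There is an absolute constant `C` such that every centered log-concave, linearly
`a`-subgaussian probability measure on `ℝⁿ` satisfies the logarithmic Sobolev inequality with
constant `C a²`, and `1/20 ≤ K_n ≤ C` for all `n ≥ 1`. -/
theorem result : ∃ C : ℝ, 0 < C ∧ ∀ n : ℕ, 1 ≤ n →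
    (∀ μ : Measure (Eu n), Admissible μ → ∀ a : ℝ, 0 < a → Subgaussian μ a →
      (∀ f : Eu n → ℝ, ContDiff ℝ ∞ f → HasCompactSupport f →
        Integrable (fun x => f x ^ 2) μ ∧ Integrable (fun x => f x ^ 2 * Real.log (f x ^ 2)) μ ∧
        Integrable (fun x => ‖gradient f x‖ ^ 2) μ ∧
        Ent μ (fun x => f x ^ 2) ≤ C * a ^ 2 * ∫ x, ‖gradient f x‖ ^ 2 ∂μ) ∧
      IsLeast {C' | LSI μ C'} (CLS μ)) ∧
    20⁻¹ ≤ K n ∧ K n ≤ ENNReal.ofReal C :=
  main

end Vale.Agent.Results.P245.ALiteral
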